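import Vale.Agent.P366.H208.CL.Lam
import Vale.Agent.P366.H222.K.Cut

/-! The area of the convex boundary surface of an exterior with the metric `δ + W dλ ⊗ dλ`. -/

open MeasureTheory Metric Filter Topology Set
open scoped ContDiff ENNReal

noncomputable section
namespace Vale.Agent.P366.CL

open Vale.Agent.P366 (pd E flux sphI)
open Vale.Agent.P366.H353.N
open Vale.Agent.P366.Kerr (NullCone Psi pt sp IsCut)
open Vale.Agent.P366.KSN (Y dts sg exists_unit U_smul Y_eq dts_pos smU smH homH homU posU' sum_xx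
  F_pos mem_Y Psi_eq)
open Vale.Agent.P366.KSL
open Vale.Agent.P366.KSD
open Vale.Agent.P366.KSR (cutX cut_Amin)
open Vale.Agent.P366.H707.N (Par dW KM adj_alg det_alg)

variable {n : ℕ} {C : NullCone n} {lam W : E n → ℝ} {D D' X : Stmt.Exterior n} {x y : E n}

/-- the metric on the boundary -/
theorem mat_CL (hL : IsLeafExt C lam W D) (hp : ∀ i, Stmt.pd i lam (Y C.H x (C.U x)) = x i)
    (hx : ‖x‖ = 1) : Stmt.mat D.g (Y C.H x (C.U x)) =
      KM (fun i => x i) (fun _ => 0) (W (Y C.H x (C.U x))) := by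
  ext i j
  show D.g (Y C.H x (C.U x)) i j = kd i j - 0 * 0 + W (Y C.H x (C.U x)) * (0 + x i) * (0 + x j)
  rw [hL.met _ (mem_Y hL.dom hx le_rfl), hp, hp]
  unfold kd
  ring

/-- The area of the boundary only depends on the metric on it. -/
theorem areaX_CL [Fact (3 ≤ n)] (hL : IsLeafExt C lam W D)
    (hp : ∀ x : E n, ‖x‖ = 1 → ∀ i, Stmt.pd i lam (Y C.H x (C.U x)) = x i) (hF : X.F = D.F)
    (hg : ∀ y, D.F y = 0 → ∀ i j, X.g y i j = D.g y i j) :
    X.area X.F ≤ ENNReal.ofReal (SI (fun x => dts C.H (C.U x) x)) := by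
  obtain ⟨c, hc⟩ := hL.cst
  have hdt : ∀ x : E n, ‖x‖ = 1 → 0 ≤ dW C.H (C.U x) x := fun x hx => (dts_pos C hx le_rfl).le
  have hS2 : SI (fun x => dts C.H (C.U x) x) = SI fun x => dW C.H (C.U x) x := rfl
  rw [hS2]
  refine Vale.Agent.P366.H707.N.area_le X (smH C) (homH C) (smU C) (homU C)
    (fun x hx => posU' C hx) hdt ?_ ?_ ?_ ?_ ?_
  · intro a ha b hb hab
    rw [Psi_eq C ha.1, Psi_eq C hb.1] at hab
    exact C.inj ha hb hab
  · intro y hy
    rw [hF] at hy
    obtain ⟨x, hx0, hx1, rfl⟩ := (hL.dom y).mp hy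
    exact ⟨x, ⟨hx0, hx1⟩, Psi_eq C hx0⟩
  · intro x hx
    rw [Psi_eq C hx.1, hF]
    exact (hL.dom _).2 ⟨x, hx.1, hx.2, rfl⟩
  · intro z hz hF0
    rw [Psi_eq C hz.1, hF] at hF0
    obtain ⟨x, hx, hzx⟩ := exists_unit hz.1
    have hn : 0 < ‖z‖ := norm_pos_iff.mpr hz.1
    have hUz : C.U z = C.U x := by rw [hzx, U_smul C (ne_zero_of_one hx) hn]
    by_contra hne
    have hlt : C.U x < ‖z‖ := by rw [← hUz]; exact lt_of_le_of_ne hz.2 hne
    have := F_pos hL.dom hx hlt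
    rw [← Y_eq C hx hn, ← hzx] at this
    exact this.ne' hF0
  · intro z hz0 hUz
    obtain ⟨x, hx, hzx⟩ := exists_unit hz0
    have hn : 0 < ‖z‖ := norm_pos_iff.mpr hz0
    have hUx : C.U x = ‖z‖ := by rw [← hUz, hzx, U_smul C (ne_zero_of_one hx) hn]
    have hY : Vale.Agent.P366.H707.N.Psi C.H z = Y C.H x (C.U x) := by
      rw [Psi_eq C hz0, hUx, ← Y_eq C hx hn, ← hzx]
    rw [hY, hF]
    have hzi : ∀ i, z i / ‖z‖ = x i := by
      intro i
      have : z i = ‖z‖ * x i := by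
        conv_lhs => rw [hzx]
        simp
      rw [this]; field_simp
    simp only [hzi]
    have hY0 : D.F (Y C.H x (C.U x)) = 0 := by
      rw [← hY, Psi_eq C hz0]
      exact hL.bdF z hz0 hUz.symm
    have hmat0 := mat_CL hL (hp x hx) hx
    have hposd := D.pos _ (mem_Y hL.dom hx (le_refl (C.U x)))
    set y0 := Y C.H x (C.U x) with hy0
    have hmat : Stmt.mat X.g y0 = Stmt.mat D.g y0 := by
      ext i j
      exact hg y0 hY0 i j
    have hmem : 0 ≤ D.F y0 := mem_Y hL.dom hx le_rfl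
    have hFd : DifferentiableAt ℝ D.F y0 := (D.dom.1.differentiable (by simp)) y0
    have hfd : DifferentiableAt ℝ (fun _ : E n => -c) y0 := differentiableAt_const _
    have hpe : ∀ i, Stmt.pd i D.F y0 = pd i D.F y0 := Vale.Agent.P366.Bridge.pd_eq hFd
    simp only [hpe]
    have hp0 : ∀ i, pd i (fun _ : E n => -c) y0 = 0 := by
      intro i
      unfold pd
      simp
    have hbdr : ∀ x : E n, x ≠ 0 → ‖x‖ = C.U x →
        (fun _ : E n => -c) (Kerr.Psi C.H x) = - C.U x := fun x hx _ => by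
      show -c = _
      rw [hc x hx]
    have hτ : 1 + ∑ j, x j * pd j (fun _ : E n => -c) y0 ≠ 0 := by
      simp only [hp0, mul_zero, Finset.sum_const_zero, add_zero]
      exact one_ne_zero
    have hco : ∑ i, pd i D.F y0 * x i = ∑ i, x i * pd i D.F y0 :=
      Finset.sum_congr rfl fun i _ => mul_comm _ _
    rw [hco]
    refine ⟨bdr_dF_pos hL.dom hL.bdF hbdr hfd hτ hx, le_of_eq ?_⟩
    unfold Vale.Agent.P366.H707.adjq
    simp only [hpe]
    rw [hmat, hmat0]
    set a := ∑ j, x j * pd j D.F y0 with ha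
    have hgr : ∀ i, pd i D.F y0 = a * x i := by
      intro i
      have h := bdr_grad hL.bdF hbdr hfd hx i
      rw [← hy0, ← ha] at h
      simp only [hp0, mul_zero, Finset.sum_const_zero, add_zero, zero_add] at h
      linarith only [h]
    have hx2 : ∑ i, x i ^ 2 = 1 := by
      rw [← sum_xx hx]
      exact Finset.sum_congr rfl fun i _ => by ring
    have hdet : 1 - ∑ i : Fin n, (0 : ℝ) ^ 2 + W y0 * (1 + ∑ i, x i * (0 : ℝ)) ^ 2 ≠ 0 := by
      have h1 := hposd.det_pos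
      rw [hmat0, det_alg (l := fun i => x i) (g := fun _ => 0) (v := W y0) hx2] at h1
      exact h1.ne'
    have h3 := adj_alg (l := fun i => x i) (g := fun _ => 0) (v := W y0) hx2 hdet
    set A := (KM (fun i => x i) (fun _ => 0) (W y0)).adjugate with hA
    have h5 : ∑ i, ∑ j, A i j * pd i D.F y0 * pd j D.F y0 =
        a ^ 2 * ∑ i, ∑ j, A i j * (0 + x i) * (0 + x j) := by
      rw [Finset.mul_sum]
      refine Finset.sum_congr rfl fun i _ => ?_
      rw [Finset.mul_sum]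
      refine Finset.sum_congr rfl fun j _ => ?_
      rw [hgr i, hgr j]; ring
    rw [h5, h3]
    simp

/-- The area of the boundary. -/
theorem areaCL [Fact (3 ≤ n)] (hL : IsLeafExt C lam W D) :
    D.area D.F ≤ ENNReal.ofReal (SI (fun x => dts C.H (C.U x) x)) :=
  areaX_CL hL (fun _ hx i => CLam.spd_lam_Y hL.toLamS hx le_rfl i) rfl fun _ _ _ _ => rfl

/-- The area of the boundary in an exterior of which it is an enclosing cut. -/
theorem areaCL_cut [Fact (3 ≤ n)] (hL : IsLeafExt C lam W D') (h : IsCut D' D) :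
    D.area D'.F ≤ ENNReal.ofReal (SI (fun x => dts C.H (C.U x) x)) := by
  refine le_trans (outer_area (D' := cutX h) (D := D) ⟨h.sub, rfl, rfl⟩ D'.F) ?_
  exact areaX_CL (X := cutX h) hL (fun _ hx i => CLam.spd_lam_Y hL.toLamS hx le_rfl i) rfl
    fun y hy i j => (h.met y hy i j).symm

/-- the areas -/
theorem area_cutCL [Fact (3 ≤ n)] (hL : IsLeafExt C lam W D') (hO : IsCut D' D) :
    D.Amin ≤ D.area D'.F ∧ D.area D'.F ≠ ⊤ ∧
    0 < 1 / 2 * (SI C.toDat.dt / om n) ^ (((n : ℝ) - 2) / ((n : ℝ) - 1)) ∧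
    (D.Amin.toReal / Stmt.omega n) ^ (((n : ℝ) - 2) / ((n : ℝ) - 1)) / 2 ≤
      ((D.area D'.F).toReal / Stmt.omega n) ^ (((n : ℝ) - 2) / ((n : ℝ) - 1)) / 2 ∧
    ((D.area D'.F).toReal / Stmt.omega n) ^ (((n : ℝ) - 2) / ((n : ℝ) - 1)) / 2 ≤
      1 / 2 * (SI C.toDat.dt / om n) ^ (((n : ℝ) - 2) / ((n : ℝ) - 1)) := by
  have hn : (3 : ℝ) ≤ (n : ℝ) := by exact_mod_cast Fact.out (p := 3 ≤ n)
  have hom : 0 < om n := om_pos
  have hdt : SI C.toDat.dt = SI (fun x => dts C.H (C.U x) x) :=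
    SI_congr fun x hx => X3.dt_one C.toDat hx
  have hA : 0 < SI C.toDat.dt := by
    rw [hdt]
    exact KSN.SI_pos (KSN.dts_cont C (KSN.smU C)) fun x hx => KSN.dts_pos C hx le_rfl
  have h6 := areaCL_cut hL hO
  rw [← hdt] at h6
  have htop : D.area D'.F ≠ ⊤ := ne_top_of_le_ne_top ENNReal.ofReal_ne_top h6
  have hle : (D.area D'.F).toReal ≤ SI C.toDat.dt := by
    have := (ENNReal.toReal_le_toReal htop ENNReal.ofReal_ne_top).2 h6
    rwa [ENNReal.toReal_ofReal hA.le] at this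
  have hle0 : D.Amin.toReal ≤ (D.area D'.F).toReal :=
    (ENNReal.toReal_le_toReal (ne_top_of_le_ne_top htop (cut_Amin hO)) htop).2 (cut_Amin hO)
  have hmpos : 0 < 1 / 2 * (SI C.toDat.dt / om n) ^ (((n : ℝ) - 2) / ((n : ℝ) - 1)) := by
    have : 0 < SI C.toDat.dt / om n := div_pos hA hom
    positivity
  have hexp : 0 ≤ ((n : ℝ) - 2) / ((n : ℝ) - 1) := div_nonneg (by linarith) (by linarith)
  rw [KSN.om_eq]
  have h4 : ((D.area D'.F).toReal / om n) ^ (((n : ℝ) - 2) / ((n : ℝ) - 1)) ≤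
      (SI C.toDat.dt / om n) ^ (((n : ℝ) - 2) / ((n : ℝ) - 1)) :=
    Real.rpow_le_rpow (div_nonneg ENNReal.toReal_nonneg hom.le)
      (div_le_div_of_nonneg_right hle hom.le) hexp
  have h5 : (D.Amin.toReal / om n) ^ (((n : ℝ) - 2) / ((n : ℝ) - 1)) ≤
      ((D.area D'.F).toReal / om n) ^ (((n : ℝ) - 2) / ((n : ℝ) - 1)) :=
    Real.rpow_le_rpow (div_nonneg ENNReal.toReal_nonneg hom.le)
      (div_le_div_of_nonneg_right hle0 hom.le) hexp
  exact ⟨cut_Amin hO, htop, hmpos, by linarith, by linarith⟩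

end Vale.Agent.P366.CL
end
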