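import Vale.Agent.P366.CL.X
import Vale.Agent.P366.CL.Flux
import Vale.Agent.P366.H707.CL.Area
import Vale.Agent.P366.H707.L.Eq
import Vale.Agent.P366.H208.CL.Main

/-! Data foliated by parallel surfaces: the case of equality, boundary and divergence. -/

open MeasureTheory Metric Filter Topology Set
open scoped ContDiff ENNReal

noncomputable section
namespace Vale.Agent.P366.CLE

open Vale.Agent.P366 (pd E flux sphI)
open Vale.Agent.P366.H353.N
open Vale.Agent.P366.CL (IsLeafExt XL kap rat lapL col nn acc grd trL lapL_eq XL_cd)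
open Vale.Agent.P366.Kerr (NullCone Psi pt sp)
open Vale.Agent.P366.KSN (Y dts sg)
open Vale.Agent.P366.KSL (qT qT_sm stokes stokes_zero)

variable {n : ℕ} {C : NullCone n} {lam W : E n → ℝ} {D : Stmt.Exterior n} {x y : E n} {s : ℝ}

/-- the metric is positive definite -/
theorem wpos (hL : IsLeafExt C lam W D) (hy : 0 ≤ D.F y) : 0 < 1 + W y := by
  have hl : ∀ i, Stmt.pd i lam y = pd i lam y := CL.spd_eq (hL.smL y hy)
  have h2 : ∑ i, Stmt.pd i lam y ^ 2 = 1 := by
    simp only [hl]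
    exact CLam.gsq_lam' hL.toLamS hy
  have h := (D.pos y hy).det_pos
  have hm : Stmt.mat D.g y =
      H707.N.KM (fun i => Stmt.pd i lam y) (fun _ => 0) (W y) := by
    ext i j
    show D.g y i j = kd i j - 0 * 0 + W y * (0 + Stmt.pd i lam y) * (0 + Stmt.pd j lam y)
    rw [hL.met _ hy]
    unfold kd
    ring
  rw [hm, H707.N.det_alg (l := fun i => Stmt.pd i lam y) (g := fun _ => 0) (v := W y) h2] at h
  simpa using h

/-- the normal component of the flux field -/
theorem XL_nor (hL : IsLeafExt C lam W D) (hx : ‖x‖ = 1) (hs : C.U x ≤ s) :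
    ∑ i, XL lam W D.K i (Y C.H x s) * x i =
      (W (Y C.H x s) / (1 + W (Y C.H x s)) + kap lam D.K (Y C.H x s) ^ 2) / 2 *
        lap lam (Y C.H x s) := by
  have hl : ∀ i, Stmt.pd i lam (Y C.H x s) = x i := CLam.spd_lam_Y hL.toLamS hx hs
  have hmem := CLam.mem_Y hL.toLamS hx hs
  have hla := lapL_eq (hL.smL _ hmem)
  have hxx := KSN.sum_xx hx
  generalize Y C.H x s = y at *
  have h1 : ∑ i, grd lam W i y * x i = 0 := by
    unfold CL.grd
    simp only [hl, sub_mul, Finset.sum_sub_distrib]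
    have e : ∀ i, (∑ j, Stmt.pd j W y * x j) * x i * x i =
        (∑ j, Stmt.pd j W y * x j) * (x i * x i) := fun i => by ring
    simp only [e, ← Finset.mul_sum, hxx]
    ring
  have h2 : ∑ i, (col lam D.K i y - nn lam D.K y * x i) * x i = 0 := by
    simp only [sub_mul, Finset.sum_sub_distrib]
    have e : ∀ i, nn lam D.K y * x i * x i = nn lam D.K y * (x i * x i) := fun i => by ring
    simp only [e, ← Finset.mul_sum, hxx]
    have : nn lam D.K y = ∑ i, col lam D.K i y * x i := by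
      unfold CL.nn
      simp only [hl]
    rw [this]
    ring
  have h3 : ∀ i, XL lam W D.K i y * x i =
      (W y / (1 + W y) + kap lam D.K y ^ 2) / 2 * lap lam y * (x i * x i) -
        (grd lam W i y * x i) * (1 / (2 * (1 + W y))) -
        kap lam D.K y * ((col lam D.K i y - nn lam D.K y * x i) * x i) := by
    intro i
    unfold CL.XL CL.acc
    rw [hla, hl]
    ring
  simp only [h3, Finset.sum_sub_distrib, ← Finset.mul_sum, ← Finset.sum_mul, hxx, h1, h2]
  ring

/-- the time function is constant -/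
theorem pd_U (hL : IsLeafExt C lam W D) (hx : x ≠ 0) (j : Fin n) : pd j C.U x = 0 := by
  obtain ⟨c, hc⟩ := hL.cst
  rw [pd_congr' (f := fun _ => c) (fun z hz => hc z hz) hx, Vale.Agent.P366.pd_const]

theorem b_zero (hL : IsLeafExt C lam W D) (hx : x ≠ 0) (i : Fin n) : C.toDat.b x i = 0 := by
  show ∑ j, (C.toDat.M x)⁻¹ i j * (‖x‖ * pd j C.U x) = 0
  simp only [pd_U hL hx, mul_zero, Finset.sum_const_zero]

/-- the boundary density of the cone -/
theorem qT_eq [Fact (3 ≤ n)] (hL : IsLeafExt C lam W D) {T : Ten n} (hTA : T.A = C.toDat.A)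
    (hTb : T.b = C.toDat.b) (hx : ‖x‖ = 1) : qT T x = sg C.H (C.U x) x := by
  have hb : ∀ y : E n, y ≠ 0 → ∀ i, T.b y i = 0 := fun y hy i => by rw [hTb]; exact b_zero hL hy i
  have hx0 := ne_zero_of_one hx
  have e1 : ∀ i j, pd i (fun y => T.b y j) x = 0 := fun i j => by
    rw [pd_congr' (f := fun _ => 0) (fun z hz => hb z hz j) hx0, Vale.Agent.P366.pd_const]
  have e2 : T.b x = 0 := funext fun i => hb x hx0 i
  unfold KSL.qT
  simp only [e1, e2]
  have e3 : H353.N.tr (T.A x) = sg C.H (C.U x) x := by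
    rw [hTA]
    exact H353.N.X3.tr_A C.toDat hx
  rw [e3]
  simp [qf]

/-- the flux through the boundary -/
theorem bdr_eq [Fact (3 ≤ n)] (hL : IsLeafExt C lam W D) (hx : ‖x‖ = 1) :
    dts C.H (C.U x) x * ∑ i, XL lam W D.K i (Y C.H x (C.U x)) * (x i - C.toDat.b x i) =
      1 / 2 * ((W (Y C.H x (C.U x)) / (1 + W (Y C.H x (C.U x))) +
        kap lam D.K (Y C.H x (C.U x)) ^ 2) * sg C.H (C.U x) x) := by
  have hx0 := ne_zero_of_one hx
  simp only [b_zero hL hx0, sub_zero]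
  rw [XL_nor hL hx le_rfl, ← CLam.lap_lam_Y hL.toLamS hx le_rfl]
  ring

/-- the weight `W / (1 + W) + κ²` on the boundary -/
def wt (C : NullCone n) (lam W : E n → ℝ) (K : Stmt.Field n) (x : E n) : ℝ :=
  W (Y C.H x (C.U x)) / (1 + W (Y C.H x (C.U x))) + kap lam K (Y C.H x (C.U x)) ^ 2

theorem lapL_ne [hn : Fact (3 ≤ n)] (hL : IsLeafExt C lam W D) (hy : 0 ≤ D.F y) :
    0 < lapL lam y := by
  rw [lapL_eq (hL.smL y hy)]
  obtain ⟨x, s, hx, hs, rfl⟩ := (CLam.mem_iff hL.toLamS).1 hy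
  exact CLam.lap_lam_pos (by have := hn.out; omega) hL.toLamS hx hs

theorem XL_sm [Fact (3 ≤ n)] (hL : IsLeafExt C lam W D) (i : Fin n) (y : E n) (hy : 0 ≤ D.F y) :
    ContDiffAt ℝ ∞ (XL lam W D.K i) y :=
  XL_cd (hL.smL y hy) (hL.smW y hy) (wpos hL hy).ne' (lapL_ne hL hy).ne' i

theorem wt_cont [Fact (3 ≤ n)] (hL : IsLeafExt C lam W D) :
    ContinuousOn (wt C lam W D.K) (sphere (0 : E n) 1) := by
  intro x hx
  have hx1 : ‖x‖ = 1 := by simpa using hx
  have hmem := CLam.mem_Y hL.toLamS hx1 (le_refl (C.U x))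
  have hY : ContinuousAt (fun x => Y C.H x (C.U x)) x :=
    (KSN.Y_comp C (KSN.smU C) (ne_zero_of_one hx1)).continuousAt
  have h1 : ContDiffAt ℝ ∞ (fun y => W y / (1 + W y) + kap lam D.K y ^ 2) (Y C.H x (C.U x)) :=
    ((hL.smW _ hmem).div (contDiffAt_const.add (hL.smW _ hmem)) (wpos hL hmem).ne').add
      ((CL.kap_cd (hL.smL _ hmem) (lapL_ne hL hmem).ne').pow 2)
  exact (ContinuousAt.comp (f := fun x => Y C.H x (C.U x)) (x := x)
    (g := fun y => W y / (1 + W y) + kap lam D.K y ^ 2) h1.continuousAt hY).continuousWithinAt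

/-- the weight is at least one on a trapped boundary -/
theorem wt_ge (hL : IsLeafExt C lam W D) (hx : ‖x‖ = 1)
    (h : rat lam W D.K (Y C.H x (C.U x)) ≤ -1) : 1 ≤ wt C lam W D.K x := by
  have hw := wpos hL (CLam.mem_Y hL.toLamS hx (le_refl (C.U x)))
  unfold wt
  unfold CL.rat at h
  generalize Y C.H x (C.U x) = y at *
  have h1 : 1 ≤ kap lam D.K y ^ 2 * (1 + W y) := by
    have e : kap lam D.K y ^ 2 * (1 + W y) = (kap lam D.K y * √(1 + W y)) ^ 2 := by
      rw [mul_pow, Real.sq_sqrt hw.le]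
    rw [e]
    nlinarith
  have h2 : 1 / (1 + W y) ≤ kap lam D.K y ^ 2 := by
    rwa [div_le_iff₀ hw]
  have h3 : W y / (1 + W y) = 1 - 1 / (1 + W y) := by
    field_simp
    ring
  rw [h3]
  linarith

/-- The case of equality. -/
theorem eqE1 [Fact (3 ≤ n)] (hL : IsLeafExt C lam W D)
    (hpos : ∀ y, 0 ≤ D.F y → 0 ≤ ∑ i, pd i (XL lam W D.K i) y) {m : ℝ}
    (hlim : Tendsto (flux (XL lam W D.K)) atTop (𝓝 (((n : ℝ) - 1) * om n * m)))
    (hth : ∀ x : E n, ‖x‖ = 1 → rat lam W D.K (Y C.H x (C.U x)) ≤ -1)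
    (hle : m ≤ 1 / 2 * (SI C.toDat.dt / om n) ^ (((n : ℝ) - 2) / ((n : ℝ) - 1))) :
    (∀ y, 0 ≤ D.F y → ∑ i, pd i (XL lam W D.K i) y = 0) ∧
    (∃ (k : ℝ) (c : E n), ∀ x, x ≠ 0 → C.H x = k * ‖x‖ + ∑ i, c i * x i) ∧
    ∀ x : E n, ‖x‖ = 1 → W (Y C.H x (C.U x)) / (1 + W (Y C.H x (C.U x))) +
      kap lam D.K (Y C.H x (C.U x)) ^ 2 = 1 ∧ rat lam W D.K (Y C.H x (C.U x)) = -1 := by
  have h3 := Fact.out (p := 3 ≤ n)
  have hn : (3 : ℝ) ≤ (n : ℝ) := by exact_mod_cast h3
  have hom : 0 < om n := om_pos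
  obtain ⟨T, hTA, hTb, -⟩ := toTen C.toDat
  have hsm := XL_sm hL
  have hst := stokes (D := D) (C := C) hL.dom hL.bdF (F := XL lam W D.K) hsm hpos hlim
  have hb : SI (fun x => dts C.H (C.U x) x *
      ∑ i, XL lam W D.K i (Y C.H x (C.U x)) * (x i - C.toDat.b x i)) =
      1 / 2 * SI (fun x => wt C lam W D.K x * sg C.H (C.U x) x) := by
    rw [← SI_cmul]
    exact SI_congr fun x hx => bdr_eq hL hx
  rw [hb] at hst
  have hsgc : ContinuousOn (fun x => sg C.H (C.U x) x) (sphere (0 : E n) 1) :=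
    KSN.sg_cont C (KSN.smU C)
  have hsg : ∀ x : E n, ‖x‖ = 1 → 0 < sg C.H (C.U x) x := fun x hx =>
    KSN.sg_pos C hx (le_refl (C.U x))
  have hwc : ContinuousOn (fun x => wt C lam W D.K x * sg C.H (C.U x) x) (sphere (0 : E n) 1) :=
    (wt_cont hL).mul hsgc
  have h7 : SI (fun x => sg C.H (C.U x) x) ≤ SI (fun x => wt C lam W D.K x * sg C.H (C.U x) x) :=
    SI_mono hsgc hwc fun x hx => by
      have h1 := wt_ge hL hx (hth x hx)
      have h2 := hsg x hx
      nlinarith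
  have hq : SI (qT T) = SI (fun x => sg C.H (C.U x) x) := SI_congr fun x hx => qT_eq hL hTA hTb hx
  have h10 := Shell.shell_frame C.toDat T hTA hTb (q := qT T) (fun x _ => rfl) 0
  have he0 : Shell.e0 (0 : Fin n → ℝ) = 1 := by
    unfold Shell.e0
    simp
  have hc : 0 < 2 * ((n : ℝ) - 1) * om n := by
    have : 0 < (n : ℝ) - 1 := by linarith
    positivity
  rw [he0, one_mul] at h10
  simp only [Pi.zero_apply, zero_mul, Finset.sum_const_zero, add_zero] at h10
  rw [le_div_iff₀ hc, hq] at h10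
  set M := 1 / 2 * (SI C.toDat.dt / om n) ^ (((n : ℝ) - 2) / ((n : ℝ) - 1)) with hM
  have h11 : ((n : ℝ) - 1) * om n * m ≤ 1 / 2 * (M * (2 * ((n : ℝ) - 1) * om n)) := by
    have : 0 < ((n : ℝ) - 1) * om n := mul_pos (by linarith) hom
    have h := mul_le_mul_of_nonneg_left hle this.le
    linarith
  have h12 : SI (fun x => sg C.H (C.U x) x) = M * (2 * ((n : ℝ) - 1) * om n) := by linarith
  have h13 : SI (fun x => wt C lam W D.K x * sg C.H (C.U x) x) =
      M * (2 * ((n : ℝ) - 1) * om n) := by linarith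
  refine ⟨?_, ?_, ?_⟩
  · refine stokes_zero (D := D) (C := C) hL.dom (F := XL lam W D.K) hsm hpos hlim ?_
    rw [hb, h13]
    exact h11
  · have h14 : SI (fun x => qT T x * (Shell.e0 (0 : Fin n → ℝ) + ∑ i, (0 : Fin n → ℝ) i * x i)) =
        M * (2 * ((n : ℝ) - 1) * om n) := by
      rw [he0, ← h12, ← hq]
      refine SI_congr fun x _ => ?_
      simp
    obtain ⟨r, hr, p, hp⟩ := Shell.bm_round C.toDat T hTA hTb (q := qT T) (fun x _ => rfl) 0 h14
    exact Shell.H_round C.toDat hp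
  · have c3 : ContinuousOn (fun x : E n => wt C lam W D.K x * sg C.H (C.U x) x -
        sg C.H (C.U x) x) (sphere (0 : E n) 1) := hwc.sub hsgc
    have h14 : SI (fun x => wt C lam W D.K x * sg C.H (C.U x) x - sg C.H (C.U x) x) = 0 := by
      rw [SI_sub hwc hsgc, h12, h13, sub_self]
    have h15 := SI_eq_zero' c3 (fun x hx => by
      have h1 := wt_ge hL hx (hth x hx)
      have h2 := hsg x hx
      nlinarith) h14
    intro x hx
    have h16 := h15 x hx
    have h17 := hsg x hx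
    have h18 : wt C lam W D.K x = 1 := by
      have : (wt C lam W D.K x - 1) * sg C.H (C.U x) x = 0 := by
        rw [sub_mul, one_mul]
        exact h16
      rcases mul_eq_zero.1 this with h | h
      · linarith
      · exact absurd h h17.ne'
    refine ⟨h18, ?_⟩
    have hw := wpos hL (CLam.mem_Y hL.toLamS hx (le_refl (C.U x)))
    have hr := hth x hx
    unfold wt at h18
    unfold CL.rat at hr ⊢
    generalize Y C.H x (C.U x) = y at *
    have h3 : W y / (1 + W y) = 1 - 1 / (1 + W y) := by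
      field_simp
      ring
    have h4 : kap lam D.K y ^ 2 = 1 / (1 + W y) := by
      rw [h3] at h18
      linarith
    have h5 : (kap lam D.K y * √(1 + W y)) ^ 2 = 1 := by
      rw [mul_pow, Real.sq_sqrt hw.le, h4]
      field_simp
    nlinarith

/-- the divergence is nonnegative up to the boundary -/
theorem div_cl [Fact (3 ≤ n)] (hL : IsLeafExt C lam W D)
    (hpos : ∀ y, 0 < D.F y → 0 ≤ ∑ i, pd i (XL lam W D.K i) y) :
    ∀ y, 0 ≤ D.F y → 0 ≤ ∑ i, pd i (XL lam W D.K i) y := by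
  intro y hy
  obtain ⟨x, s, hx, hs, rfl⟩ := (CLam.mem_iff hL.toLamS).1 hy
  have hc : ContinuousAt (fun t => ∑ i, pd i (XL lam W D.K i) (Y C.H x t)) s := by
    refine tendsto_finsetSum _ fun i _ => ?_
    exact ContinuousAt.comp (f := Y C.H x) (KSN.pd_contAt (XL_sm hL i _ hy) i)
      (KSN.Y_cont C.H x).continuousAt
  have ht : Tendsto (fun t => ∑ i, pd i (XL lam W D.K i) (Y C.H x t)) (𝓝[>] s)
      (𝓝 (∑ i, pd i (XL lam W D.K i) (Y C.H x s))) := hc.tendsto.mono_left nhdsWithin_le_nhds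
  refine ge_of_tendsto ht ?_
  filter_upwards [self_mem_nhdsWithin] with t ht'
  exact hpos _ (CLam.F_pos hL.toLamS hx (lt_of_le_of_lt hs ht'))

/-- **[E1]** The case of equality: the divergence of the flux field vanishes, the convex body is a
ball, and on the boundary `W / (1 + W) + κ² = 1` and `τ = - H`. -/
theorem eq_XL [Fact (3 ≤ n)] (hL : IsLeafExt C lam W D) (hAF : D.IsAF) (hT : D.Trapped) {m : ℝ}
    (hm : D.IsEnergy m) (hpos : ∀ y, 0 < D.F y → 0 ≤ ∑ i, pd i (XL lam W D.K i) y)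
    (hle : m ≤ 1 / 2 * (SI C.toDat.dt / om n) ^ (((n : ℝ) - 2) / ((n : ℝ) - 1))) :
    (∀ y, 0 ≤ D.F y → ∑ i, pd i (XL lam W D.K i) y = 0) ∧
    (∃ (k : ℝ) (c : E n), ∀ x, x ≠ 0 → C.H x = k * ‖x‖ + ∑ i, c i * x i) ∧
    ∀ x : E n, ‖x‖ = 1 → W (Y C.H x (C.U x)) / (1 + W (Y C.H x (C.U x))) +
      kap lam D.K (Y C.H x (C.U x)) ^ 2 = 1 ∧ rat lam W D.K (Y C.H x (C.U x)) = -1 :=
  eqE1 hL (div_cl hL hpos) (CL.flux_XL hL hAF hm) (fun _ hx => CLam.kap_bdr hL hT hx) hle

end Vale.Agent.P366.CLE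
end
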